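import Mathlib

namespace Vale.Agent.Lib.P160.H6

/-- the real-number core: if the ratio is at most one, its cube times the fourth power of
sixteen times the base is at most one, and three times the first exponent is at most four times
the second, then the product is at most the stated power of one eighth -/
theorem rv_core (M ρ : ℝ) (n e : ℕ) (hM : 0 ≤ M) (hρ : 0 < ρ) (hρ1 : ρ ≤ 1)
    (hkey : (16 * M) ^ 4 * ρ ^ 3 ≤ 1) (he : 3 * n ≤ 4 * e) :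
    M ^ n * 2 ^ n * ρ ^ e ≤ (1 / 8) ^ n := by
  have hA : 0 ≤ M ^ n * 2 ^ n * ρ ^ e := by positivity
  have hB : 0 ≤ ((1 : ℝ) / 8) ^ n := by positivity
  rw [← pow_le_pow_iff_left₀ hA hB (by norm_num : (4 : ℕ) ≠ 0)]
  have a1 : (M ^ n) ^ 4 = (M ^ 4) ^ n := by rw [← pow_mul, ← pow_mul, mul_comm]
  have a2 : ((2 : ℝ) ^ n) ^ 4 = ((2 : ℝ) ^ 4) ^ n := by rw [← pow_mul, ← pow_mul, mul_comm]
  have a3 : (ρ ^ e) ^ 4 = ρ ^ (4 * e) := by rw [← pow_mul, mul_comm]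
  have e1 : (M ^ n * 2 ^ n * ρ ^ e) ^ 4 = (M ^ 4 * 2 ^ 4) ^ n * ρ ^ (4 * e) := by
    have b1 : (M ^ n * 2 ^ n * ρ ^ e) ^ 4 = (M ^ n) ^ 4 * ((2 : ℝ) ^ n) ^ 4 * (ρ ^ e) ^ 4 := by
      ring
    have b2 : (M ^ 4 * 2 ^ 4) ^ n = (M ^ 4) ^ n * ((2 : ℝ) ^ 4) ^ n := mul_pow _ _ _
    rw [b1, b2, a1, a2, a3]
  have e2 : ρ ^ (4 * e) ≤ ρ ^ (3 * n) := pow_le_pow_of_le_one hρ.le hρ1 he
  have e3 : (M ^ 4 * 2 ^ 4) ^ n * ρ ^ (3 * n) = (M ^ 4 * 2 ^ 4 * ρ ^ 3) ^ n := by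
    rw [mul_pow (M ^ 4 * 2 ^ 4) (ρ ^ 3) n, ← pow_mul ρ 3 n]
  have e4 : M ^ 4 * 2 ^ 4 * ρ ^ 3 ≤ (1 / 8) ^ 4 := by
    have h1 : M ^ 4 * 2 ^ 4 * ρ ^ 3 = (16 * M) ^ 4 * ρ ^ 3 * (1 / 8) ^ 4 := by ring
    rw [h1]
    have h8 : (0 : ℝ) ≤ (1 / 8) ^ 4 := by positivity
    calc (16 * M) ^ 4 * ρ ^ 3 * (1 / 8) ^ 4 ≤ 1 * (1 / 8) ^ 4 :=
          mul_le_mul_of_nonneg_right hkey h8
      _ = (1 / 8) ^ 4 := one_mul _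
  have e5 : (0 : ℝ) ≤ M ^ 4 * 2 ^ 4 * ρ ^ 3 := by positivity
  calc (M ^ n * 2 ^ n * ρ ^ e) ^ 4 = (M ^ 4 * 2 ^ 4) ^ n * ρ ^ (4 * e) := e1
    _ ≤ (M ^ 4 * 2 ^ 4) ^ n * ρ ^ (3 * n) := mul_le_mul_of_nonneg_left e2 (by positivity)
    _ = (M ^ 4 * 2 ^ 4 * ρ ^ 3) ^ n := e3
    _ ≤ (((1 : ℝ) / 8) ^ 4) ^ n := pow_le_pow_left₀ e5 e4 n
    _ = (((1 : ℝ) / 8) ^ n) ^ 4 := by rw [← pow_mul, ← pow_mul, mul_comm]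

theorem rv_num (C : ℝ) (hC : 0 < C) : ∃ m₀ : ℕ, 8 ≤ m₀ ∧ ∀ m n : ℕ, m₀ ≤ m → 6 * m ≤ n →
    C / (((m / 4 : ℕ) : ℝ) * Real.sqrt ((m / 4 : ℕ) : ℝ)) ≤ 1 ∧
    (m : ℝ) ^ n * 2 ^ n *
      (C / (((m / 4 : ℕ) : ℝ) * Real.sqrt ((m / 4 : ℕ) : ℝ))) ^ (n - m - m / 4) ≤ (1 / 8) ^ n := by
  obtain ⟨K, hK⟩ : ∃ K : ℝ, K = 128 ^ 4 * C ^ 3 + C + 1 := ⟨_, rfl⟩
  have hC3 : 0 < C ^ 3 := pow_pos hC 3
  have hK1 : 1 ≤ K := by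
    rw [hK]
    nlinarith
  have hKC : C ≤ K := by
    rw [hK]
    nlinarith
  have hK3 : 128 ^ 4 * C ^ 3 ≤ K := by
    rw [hK]
    linarith
  refine ⟨4 * ⌈K ^ 2⌉₊ + 8, by omega, ?_⟩
  intro m n hm hn
  obtain ⟨d, hd⟩ : ∃ d : ℕ, d = m / 4 := ⟨_, rfl⟩
  rw [← hd]
  have hd1 : ⌈K ^ 2⌉₊ + 2 ≤ d := by omega
  have hd2 : m ≤ 8 * d := by omega
  have hDK : K ^ 2 ≤ (d : ℝ) := by
    have h1 := Nat.le_ceil (K ^ 2)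
    have h2 : ((⌈K ^ 2⌉₊ + 2 : ℕ) : ℝ) ≤ (d : ℝ) := by exact_mod_cast hd1
    push_cast at h2
    linarith
  have hm8 : (m : ℝ) ≤ 8 * (d : ℝ) := by exact_mod_cast hd2
  obtain ⟨D, hD⟩ : ∃ D : ℝ, D = (d : ℝ) := ⟨_, rfl⟩
  rw [← hD] at hDK hm8 ⊢
  have hD1 : 1 ≤ D := by nlinarith
  have hDpos : 0 < D := by linarith
  obtain ⟨s, hs⟩ : ∃ s : ℝ, s = Real.sqrt D := ⟨_, rfl⟩
  rw [← hs]
  have hs2 : s ^ 2 = D := by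
    rw [hs]
    exact Real.sq_sqrt hDpos.le
  have hsK : K ≤ s := by
    rw [hs]
    exact Real.le_sqrt_of_sq_le hDK
  have hspos : 0 < s := by linarith
  have hden : 0 < D * s := by positivity
  have hρpos : 0 < C / (D * s) := by positivity
  have hρ1 : C / (D * s) ≤ 1 := by
    rw [div_le_one hden]
    nlinarith
  have hkey : (16 * (m : ℝ)) ^ 4 * (C / (D * s)) ^ 3 ≤ 1 := by
    have h1 : (16 * (m : ℝ)) ^ 4 ≤ (128 * D) ^ 4 := by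
      apply pow_le_pow_left₀ (by positivity)
      linarith
    have h2 : (128 * D) ^ 4 * (C / (D * s)) ^ 3 = 128 ^ 4 * C ^ 3 / s := by
      rw [← hs2]
      field_simp
    have h3 : 128 ^ 4 * C ^ 3 / s ≤ 1 := by
      rw [div_le_one hspos]
      linarith
    calc (16 * (m : ℝ)) ^ 4 * (C / (D * s)) ^ 3 ≤ (128 * D) ^ 4 * (C / (D * s)) ^ 3 :=
          mul_le_mul_of_nonneg_right h1 (by positivity)
      _ = 128 ^ 4 * C ^ 3 / s := h2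
      _ ≤ 1 := h3
  refine ⟨hρ1, ?_⟩
  have he4 : 3 * n ≤ 4 * (n - m - d) := by omega
  exact rv_core (m : ℝ) (C / (D * s)) n (n - m - d) (Nat.cast_nonneg m) hρpos hρ1 hkey he4

end Vale.Agent.Lib.P160.H6
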